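import Vale.Agent.P133OF.Cen2
import Vale.Agent.P133O37.RedF
import Vale.Agent.P133OE.Lift
import Vale.Agent.P133OG.Full

/-! P133O, block CEN (i) + (ii), unconditional. -/

namespace Vale.Agent.P133OF

universe u

/-- For nuclear `A` the identity map is approximated by sums of relatively excised one-step
maps with small error budget. -/
theorem cen2 {A : Type u} [NonUnitalCStarAlgebra A] [PartialOrder A] [StarOrderedRing A]
    (hA : P095R.IsNuclearAlg A) : Cen2 A :=
  cen2_of P133O37.red_holds P133OE.lift
    (fun _ _ _ _ π hf b hb K _ hδ => P133OG.full π hf (b : Unitization ℂ A) hb K hδ) hA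

end Vale.Agent.P133OF
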