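import Vale.Agent.P133OF.Defs

/-! P133O, block CEN (ii): one excised piece in a representation. -/

open scoped InnerProductSpace

namespace Vale.Agent.P133OF

universe u

variable {A : Type u} [NonUnitalCStarAlgebra A]
variable {H : Type*} [NormedAddCommGroup H] [InnerProductSpace ℂ H] [CompleteSpace H]

/-- the product of an element of the unitization and an element of `A` -/
noncomputable def lm (a : Unitization ℂ A) (c : A) : A := a.fst • c + a.snd * c

theorem coe_lm (a : Unitization ℂ A) (c : A) :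
    ((lm a c : A) : Unitization ℂ A) = a * (c : Unitization ℂ A) := by
  ext <;> simp [lm]

/-- the vector functional -/
noncomputable def om (π : Unitization ℂ A →⋆ₐ[ℂ] (H →L[ℂ] H)) (v : H) : A →ₗ[ℂ] ℂ where
  toFun a := ⟪v, π (a : Unitization ℂ A) v⟫_ℂ
  map_add' a b := by
    rw [Unitization.inr_add, map_add, add_apply, inner_add_right]
  map_smul' c a := by
    rw [Unitization.inr_smul, map_smul, smul_apply, inner_smul_right]
    rfl

variable (π : Unitization ℂ A →⋆ₐ[ℂ] (H →L[ℂ] H))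

theorem om_apply (v : H) (a : A) : om π v a = ⟪v, π (a : Unitization ℂ A) v⟫_ℂ := rfl

theorem norm_om_le' (v : H) (a : A) : ‖om π v a‖ ≤ ‖π (a : Unitization ℂ A)‖ * ‖v‖ ^ 2 := by
  rw [om_apply]
  refine (norm_inner_le_norm _ _).trans ?_
  have := (π (a : Unitization ℂ A)).le_opNorm v
  calc ‖v‖ * ‖π (a : Unitization ℂ A) v‖ ≤ ‖v‖ * (‖π (a : Unitization ℂ A)‖ * ‖v‖) := by gcongr
    _ = _ := by ring

theorem norm_pi_le (a : A) : ‖π (a : Unitization ℂ A)‖ ≤ ‖a‖ :=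
  (NonUnitalStarAlgHom.norm_apply_le π _).trans (Unitization.norm_inr a).le

theorem norm_om_le (v : H) (a : A) : ‖om π v a‖ ≤ ‖a‖ * ‖v‖ ^ 2 :=
  (norm_om_le' π v a).trans (by gcongr; exact norm_pi_le π a)

theorem inner_conj (v : H) (c d u : Unitization ℂ A) :
    ⟪v, π (star c * u * d) v⟫_ℂ = ⟪π c v, π u (π d v)⟫_ℂ := by
  rw [map_mul, map_mul, map_star, mul_apply_eq_comp, mul_apply_eq_comp,
    ContinuousLinearMap.star_eq_adjoint, ContinuousLinearMap.adjoint_inner_right]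

theorem re_om_star (v : H) (a : A) : (om π v (star a)).re = (om π v a).re := by
  rw [om_apply, om_apply, Unitization.inr_star, map_star, ContinuousLinearMap.star_eq_adjoint,
    ContinuousLinearMap.adjoint_inner_right, ← inner_conj_symm, Complex.conj_re]

theorem re_om_rsmul (v : H) (t : ℝ) (a : A) : (om π v (t • a)).re = t * (om π v a).re := by
  rw [← Complex.coe_smul, map_smul, smul_eq_mul, Complex.re_ofReal_mul]

/-- `b` is full for the representation -/
def FullAt (b : A) : Prop :=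
  ∀ (K : Finset H) (δ : ℝ), 0 < δ → ∃ (m : ℕ) (a : Fin m → Unitization ℂ A),
    ‖∑ r, star ((b : Unitization ℂ A) * a r) * ((b : Unitization ℂ A) * a r)‖ ≤ 1 ∧
    ∀ v ∈ K, ‖π (∑ r, star ((b : Unitization ℂ A) * a r) * ((b : Unitization ℂ A) * a r)) v - v‖
      ≤ δ

theorem exists_approx {b : A} (hb : FullAt π b) {n : ℕ} (c : Fin n → A) {P : Type*} [Fintype P]
    (ζ : P → H) {δ : ℝ} (hδ : 0 < δ) : ∃ (m : ℕ) (d : Fin m → Fin n → A),
      (∀ i, ‖∑ r, star (b * d r i) * (b * d r i)‖ ≤ ‖c i‖ ^ 2) ∧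
      ∀ p i j, ‖om π (ζ p) (∑ r, star (b * d r i) * (b * d r j)) -
        om π (ζ p) (star (c i) * c j)‖ ≤ ‖c i‖ * ‖ζ p‖ * δ := by
  classical
  obtain ⟨m, a, h1, h2⟩ := hb (Finset.univ.image fun q : P × Fin n =>
    π (c q.2 : Unitization ℂ A) (ζ q.1)) δ hδ
  set w := ∑ r, star ((b : Unitization ℂ A) * a r) * ((b : Unitization ℂ A) * a r) with hw
  have hg : ∀ i j, ((∑ r, star (b * lm (a r) (c i)) * (b * lm (a r) (c j)) : A) :
      Unitization ℂ A) = star (c i : Unitization ℂ A) * w * (c j : Unitization ℂ A) := by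
    intro i j
    rw [hw, Finset.mul_sum, Finset.sum_mul]
    refine (map_sum (Unitization.inrNonUnitalStarAlgHom ℂ A) _ _).trans ?_
    refine Finset.sum_congr rfl fun r _ => ?_
    change ((star (b * lm (a r) (c i)) * (b * lm (a r) (c j)) : A) : Unitization ℂ A) = _
    rw [Unitization.inr_mul, Unitization.inr_star, Unitization.inr_mul, Unitization.inr_mul,
      coe_lm, coe_lm]
    simp only [star_mul, mul_assoc]
  refine ⟨m, fun r i => lm (a r) (c i), fun i => ?_, fun p i j => ?_⟩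
  · rw [← Unitization.norm_inr (𝕜 := ℂ), hg]
    calc _ ≤ ‖star (c i : Unitization ℂ A)‖ * ‖w‖ * ‖(c i : Unitization ℂ A)‖ :=
          (norm_mul_le _ _).trans (by gcongr; exact norm_mul_le _ _)
      _ ≤ ‖star (c i : Unitization ℂ A)‖ * 1 * ‖(c i : Unitization ℂ A)‖ := by gcongr
      _ = ‖c i‖ ^ 2 := by rw [norm_star, Unitization.norm_inr]; ring
  · have e1 : om π (ζ p) (star (c i) * c j) = ⟪π (c i : Unitization ℂ A) (ζ p),
        π (c j : Unitization ℂ A) (ζ p)⟫_ℂ := by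
      have := inner_conj π (ζ p) (c i) (c j) 1
      rw [mul_one, map_one] at this
      rw [om_apply, Unitization.inr_mul, Unitization.inr_star, this]
      rfl
    rw [e1, om_apply, hg, inner_conj, ← inner_sub_right]
    refine (norm_inner_le_norm _ _).trans ?_
    have h3 := h2 _ (Finset.mem_image_of_mem _ (Finset.mem_univ (p, j)))
    have h4 : ‖π (c i : Unitization ℂ A) (ζ p)‖ ≤ ‖c i‖ * ‖ζ p‖ :=
      ((π (c i : Unitization ℂ A)).le_opNorm _).trans (by gcongr; exact norm_pi_le π _)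
    gcongr

variable [PartialOrder A] [StarOrderedRing A]

theorem re_om_nonneg (v : H) {a : A} (ha : 0 ≤ a) : 0 ≤ (om π v a).re := by
  obtain ⟨y, rfl⟩ := CStarAlgebra.nonneg_iff_eq_star_mul_self.1 ha
  have := inner_conj π v (y : Unitization ℂ A) y 1
  rw [mul_one, map_one] at this
  rw [om_apply, Unitization.inr_mul, Unitization.inr_star, this]
  exact inner_self_nonneg (𝕜 := ℂ)

theorem re_om_mono (v : H) {a b : A} (h : a ≤ b) : (om π v a).re ≤ (om π v b).re := by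
  have := re_om_nonneg π v (sub_nonneg.2 h)
  rw [map_sub, Complex.sub_re] at this
  linarith

theorem bud_nonneg {n : ℕ} (b : A) (c : Fin n → A) : 0 ≤ bud b c :=
  Finset.sum_nonneg fun _ _ => star_mul_self_nonneg _

theorem signed_le {F : Finset A} (D : Datum F) {x : A} (hx : x ∈ F) (v : H) {s : ℝ}
    (hs : |s| ≤ 1) : s * (om π v (star D.z * x * D.z)).re ≤
      s * (om π v (nn (D.ψ x) D.b D.c)).re + D.κ * (om π v (bud D.b D.c)).re := by
  obtain ⟨h1, h2⟩ := D.exc x hx D.c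
  have h3 := re_om_mono π v h1
  have h4 := re_om_mono π v h2
  rw [map_neg, Complex.neg_re] at h4
  rw [map_add, Complex.add_re, re_om_star, re_om_rsmul] at h3 h4
  have h5 : (om π v (star D.z * x * D.z)).re = (om π v (nn (D.ψ x) D.b D.c)).re +
      (om π v (dfc (D.ψ x) D.b D.y D.c x)).re := by
    rw [dfc, map_sub, Complex.sub_re, Datum.z]
    ring
  have h6 : 0 ≤ D.κ * (om π v (bud D.b D.c)).re :=
    mul_nonneg D.κ_nonneg (re_om_nonneg π v (bud_nonneg _ _))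
  have h7 : |(om π v (dfc (D.ψ x) D.b D.y D.c x)).re| ≤ D.κ * (om π v (bud D.b D.c)).re := by
    rw [abs_le]
    constructor <;> linarith
  have h8 : s * (om π v (dfc (D.ψ x) D.b D.y D.c x)).re ≤ D.κ * (om π v (bud D.b D.c)).re := by
    refine (le_abs_self _).trans ?_
    rw [abs_mul]
    calc _ ≤ 1 * (D.κ * (om π v (bud D.b D.c)).re) := by gcongr
      _ = _ := one_mul _
  rw [h5, mul_add]
  linarith

/-- one excised piece -/
theorem piece {F : Finset A} {P : Type*} [Fintype P] (x : P → A) (hx : ∀ p, x p ∈ F)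
    (sg : P → ℝ) (hsg : ∀ p, |sg p| ≤ 1) (ζ : P → H) (ζ0 : H)
    (hW : ∀ D : Datum F, 0 ≤ (om π ζ0 D.S).re +
      ∑ p, sg p * (om π (ζ p) (star D.z * x p * D.z)).re)
    {n : ℕ} {b : A} {y : Fin n → A} {ψ : A → Fin n → Fin n → ℂ} {κ : ℝ} (hb : 0 ≤ b)
    (hκ : 0 ≤ κ) (hexc : RelExc F b y ψ κ) (hfull : FullAt π b) (c : Fin n → A) :
    0 ≤ ∑ p, sg p * (om π (ζ p) (∑ i, ∑ j, ψ (x p) i j • (star (c i) * c j))).re +
      κ * (∑ i, ‖c i‖ ^ 2) * (‖ζ0‖ ^ 2 + ∑ p, ‖ζ p‖ ^ 2) := by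
  set L : ℝ := ∑ p, ∑ i, ∑ j, ‖ψ (x p) i j‖ * (‖c i‖ * ‖ζ p‖) with hL
  have hL0 : 0 ≤ L := by positivity
  refine le_of_forall_pos_le_add fun ε hε => ?_
  obtain ⟨m, d, hd1, hd2⟩ := exists_approx π hfull c ζ (δ := ε / (L + 1)) (by positivity)
  let D : Fin m → Datum F := fun r => ⟨n, b, y, ψ, κ, d r, hb, hκ, hexc⟩
  have hbud : ∀ v : H, ∑ r, (om π v (bud b (d r))).re ≤ (∑ i, ‖c i‖ ^ 2) * ‖v‖ ^ 2 := by
    intro v
    rw [← Complex.re_sum, ← map_sum]
    simp only [bud]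
    rw [Finset.sum_comm, map_sum, Complex.re_sum, Finset.sum_mul]
    refine Finset.sum_le_sum fun i _ => ?_
    refine (Complex.re_le_norm _).trans ((norm_om_le π v _).trans ?_)
    gcongr
    exact hd1 i
  have hnn : ∀ p, sg p * ∑ r, (om π (ζ p) (nn (ψ (x p)) b (d r))).re ≤
      sg p * (om π (ζ p) (∑ i, ∑ j, ψ (x p) i j • (star (c i) * c j))).re +
        ∑ i, ∑ j, ‖ψ (x p) i j‖ * (‖c i‖ * ‖ζ p‖) * (ε / (L + 1)) := by
    intro p
    have e1 : ∑ r, nn (ψ (x p)) b (d r) =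
        ∑ i, ∑ j, ψ (x p) i j • ∑ r, star (b * d r i) * (b * d r j) := by
      simp only [nn, Finset.smul_sum]
      rw [Finset.sum_comm]
      exact Finset.sum_congr rfl fun i _ => Finset.sum_comm
    have e2 : ‖om π (ζ p) (∑ r, nn (ψ (x p)) b (d r)) -
        om π (ζ p) (∑ i, ∑ j, ψ (x p) i j • (star (c i) * c j))‖ ≤
        ∑ i, ∑ j, ‖ψ (x p) i j‖ * (‖c i‖ * ‖ζ p‖) * (ε / (L + 1)) := by
      rw [e1, map_sum, map_sum, ← Finset.sum_sub_distrib]
      refine (norm_sum_le _ _).trans (Finset.sum_le_sum fun i _ => ?_)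
      rw [map_sum, map_sum, ← Finset.sum_sub_distrib]
      refine (norm_sum_le _ _).trans (Finset.sum_le_sum fun j _ => ?_)
      rw [map_smul, map_smul, ← smul_sub, norm_smul, mul_assoc]
      gcongr
      exact hd2 p i j
    rw [← Complex.re_sum, ← map_sum, ← sub_le_iff_le_add', ← mul_sub, ← Complex.sub_re]
    refine (le_abs_self _).trans ?_
    rw [abs_mul]
    calc _ ≤ 1 * ‖om π (ζ p) (∑ r, nn (ψ (x p)) b (d r)) -
          om π (ζ p) (∑ i, ∑ j, ψ (x p) i j • (star (c i) * c j))‖ := by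
          gcongr
          · exact hsg p
          · exact Complex.abs_re_le_norm _
      _ ≤ _ := by rw [one_mul]; exact e2
  have h1 : 0 ≤ ∑ r, ((om π ζ0 (D r).S).re +
      ∑ p, sg p * (om π (ζ p) (star (D r).z * x p * (D r).z)).re) :=
    Finset.sum_nonneg fun r _ => hW (D r)
  have h2 : ∑ r, (om π ζ0 (D r).S).re ≤ κ * ((∑ i, ‖c i‖ ^ 2) * ‖ζ0‖ ^ 2) := by
    have : ∀ r, (om π ζ0 (D r).S).re = κ * (om π ζ0 (bud b (d r))).re := fun r =>
      re_om_rsmul π ζ0 κ _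
    simp only [this]
    rw [← Finset.mul_sum]
    exact mul_le_mul_of_nonneg_left (hbud ζ0) hκ
  have h3 : ∀ p, ∑ r, sg p * (om π (ζ p) (star (D r).z * x p * (D r).z)).re ≤
      sg p * (om π (ζ p) (∑ i, ∑ j, ψ (x p) i j • (star (c i) * c j))).re +
        ∑ i, ∑ j, ‖ψ (x p) i j‖ * (‖c i‖ * ‖ζ p‖) * (ε / (L + 1)) +
        κ * ((∑ i, ‖c i‖ ^ 2) * ‖ζ p‖ ^ 2) := by
    intro p
    refine (Finset.sum_le_sum fun r _ => signed_le π (D r) (hx p) (ζ p) (hsg p)).trans ?_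
    rw [Finset.sum_add_distrib, ← Finset.mul_sum]
    refine add_le_add (hnn p) ?_
    change ∑ r, κ * (om π (ζ p) (bud b (d r))).re ≤ _
    rw [← Finset.mul_sum]
    exact mul_le_mul_of_nonneg_left (hbud (ζ p)) hκ
  rw [Finset.sum_add_distrib, Finset.sum_comm] at h1
  have h4 := Finset.sum_le_sum fun p (_ : p ∈ Finset.univ) => h3 p
  rw [Finset.sum_add_distrib, Finset.sum_add_distrib] at h4
  have h5 : ∑ p, ∑ i, ∑ j, ‖ψ (x p) i j‖ * (‖c i‖ * ‖ζ p‖) * (ε / (L + 1)) ≤ ε := by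
    have e : ∑ p, ∑ i, ∑ j, ‖ψ (x p) i j‖ * (‖c i‖ * ‖ζ p‖) * (ε / (L + 1)) =
        L * (ε / (L + 1)) := by
      rw [hL]
      simp only [Finset.sum_mul]
    rw [e, mul_div_assoc', div_le_iff₀ (by positivity)]
    nlinarith
  have h6 : ∑ p, κ * ((∑ i, ‖c i‖ ^ 2) * ‖ζ p‖ ^ 2) =
      κ * (∑ i, ‖c i‖ ^ 2) * ∑ p, ‖ζ p‖ ^ 2 := by
    rw [← Finset.mul_sum, ← Finset.mul_sum, mul_assoc]
  rw [h6] at h4
  rw [mul_add]
  linarith

end Vale.Agent.P133OF
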